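import Vale.Agent.P155.SW730.Main
import Vale.Agent.P155.K.Final

/-!
# P155, block SW1: closed form
-/

namespace Vale.Agent.P155.SW730

/-- **Block (1) of (SW)**, closed form. -/
theorem sd_F' : SD_F := sd_F K.e_sd' L.l_expl

end Vale.Agent.P155.SW730
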