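import Vale.Agent.P155.SW730.Part

/-!
# P155, block SW1: Schwinger–Dyson equation with a factor not depending on the inside of `B`
-/

namespace Vale.Agent.P155.SW730

open Finset Skel J

/-- `F` does not change when the configuration is changed inside `B` -/
def InvIn (V : Finset Pt) (B : Set Pt) (F : Conf → ℂ) : Prop :=
  ∀ ω ∈ DD V, ∀ ω' ∈ DD V, (∀ v, v ∉ B → ω'.1 v = ω.1 v ∧ ω'.2 v = ω.2 v) → F ω' = F ω

theorem InvIn.meas {V : Finset Pt} {B B' : Set Pt} {F : Conf → ℂ} (h : InvIn V B F) {X : Expl}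
    (hB : B' ⊆ B) :
    ∀ ω ∈ DD V, ∀ ω' ∈ DD V, AgreeOff (outside X B' ω) ω ω' → F ω' = F ω := by
  intro ω hω ω' hω' hag
  apply h ω hω ω' hω'
  intro v hv
  exact ⟨hag.1 v (fun hh => hv (hB hh.2.1)), hag.2 v (fun hh => hv (hB hh.2.1))⟩

/-- one cell -/
theorem cell_bound (hex : L_expl) {T : Temp} {B : Set Pt} {F W : Conf → ℂ}
    (hF1 : ∀ ω ∈ DD T.V, ‖F ω‖ ≤ 1) (hF : InvIn T.V B F) {x : Pt} {n : ℕ}
    (hB : (box x n : Set Pt) ⊆ B) {G : Set Conf} {b b' : ℝ} (hb : 0 ≤ b) (hb' : 0 ≤ b')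
    (h1 : ∀ ω' ∈ DD T.V, ω' ∈ G → ‖cEx T.V (outside (Fk T.V 0) (box x n)) W ω'‖ ≤ b)
    (h2 : ∀ ω' ∈ DD T.V, ‖W ω'‖ ≤ b') :
    ‖Ex T.V (fun ω => F ω * W ω)‖ ≤ b + b' * Ex T.V (bad G) := by
  rw [← Ex_mul_cEx (isExpl_outside (hex T 0) (box x n : Set Pt)) (hF.meas hB)]
  calc ‖Ex T.V (fun ω => F ω * cEx T.V (outside (Fk T.V 0) (box x n)) W ω)‖
      ≤ avg (DD T.V) (fun ω => ‖F ω * cEx T.V (outside (Fk T.V 0) (box x n)) W ω‖) :=
        norm_avg_le _ _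
    _ ≤ avg (DD T.V) (fun ω => b + b' * bad G ω) := by
        apply avg_mono
        intro ω hω
        rw [norm_mul]
        refine (mul_le_of_le_one_left (norm_nonneg _) (hF1 ω hω)).trans ?_
        by_cases hG : ω ∈ G
        · have := h1 ω hω hG
          have := bad_nonneg G ω
          nlinarith [mul_nonneg hb' this]
        · rw [bad_of_notMem hG, mul_one]
          have : ‖cEx T.V (outside (Fk T.V 0) (box x n)) W ω‖ ≤ b' := by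
            apply norm_avg_le_const hb'
            intro ω'' h''
            exact h2 ω'' (atom_sub h'')
          linarith
    _ ≤ b + b' * Ex T.V (bad G) := by
        rw [avg_add, avg_mul_left, Ex_eq_avg]
        have := avg_le_const (s := DD T.V) hb (fun (a : Conf) (_ : a ∈ DD T.V) => le_refl b)
        linarith

theorem sdTerm_sum {I : Finset Pt} {ψ : Pt → ℝ} {ψk : Pt → Pt → ℝ} (hfs : ∀ k ∈ I, FS (ψk k))
    (h : ∀ y, ψ y = ∑ k ∈ I, ψk k y) (φ : Pt → ℝ) (τ : ℝ) (ω : Conf) :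
    sdTerm φ ψ τ ω = ∑ k ∈ I, sdTerm φ (ψk k) τ ω := by
  have e1 : lap ψ = fun x => ∑ k ∈ I, lap (ψk k) x := by
    funext x
    rw [← lap_sum]
    congr 1
    funext y
    exact h y
  have e2 : pair ψ φ = ∑ k ∈ I, pair (ψk k) φ := by
    rw [← pair_sum hfs φ]
    congr 1
    funext y
    exact h y
  unfold sdTerm
  rw [e1, hf_sum (fun k hk => fs_lap (hfs k hk)), e2]
  push_cast
  rw [Finset.sum_add_distrib, Finset.sum_mul, Finset.mul_sum, Finset.sum_mul]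

theorem sdTerm_zero (φ : Pt → ℝ) (τ : ℝ) (ω : Conf) : sdTerm φ (fun _ => 0) τ ω = 0 := by
  have e1 : lap (fun _ => (0 : ℝ)) = fun _ => 0 := by funext x; simp [lap]
  unfold sdTerm
  rw [e1]
  simp [hf, pair]

/-- final numerical bound -/
theorem num_total {κ c : ℝ} (hκ : 0 < κ) (hκc : κ ≤ c / 40) (hκ2 : κ ≤ 1 / 200) (hc : 0 < c)
    (hc1 : c ≤ 1) {γ : ℝ} (hγ1 : γ ≤ 1 / 10) (hγ2 : γ ≤ c / 2) {R M t : ℕ} (hR : 1 ≤ R)
    (hM1 : 1 ≤ M) (hM2 : (R : ℝ) ^ (9 / 10 : ℝ) ≤ 2 * M) (hMle : (M : ℝ) ≤ (R : ℝ) ^ (9 / 10 : ℝ))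
    (p2 : 1 ≤ t) (p4 : (M : ℝ) ^ (1 - 3 * κ) ≤ 2 * t) {CE H D : ℝ} (hCE : 0 ≤ CE) (hHn : 0 ≤ H)
    (hDn : 0 ≤ D) :
    225 * ((R : ℝ) / t) ^ 2 * (CE * (H * eSD κ c R M) +
      D * (R : ℝ) ^ 3 * H * (CE * (R : ℝ) ^ (-20 : ℝ))) ≤
    (900 * CE * H * 69 + 225 * D * H * CE) * (R : ℝ) ^ (-γ) := by
  have hRr : (1 : ℝ) ≤ R := by exact_mod_cast hR
  have hRp : (0 : ℝ) < R := by linarith
  have hM1r : (1 : ℝ) ≤ M := by exact_mod_cast hM1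
  have hM0 : (0 : ℝ) < M := by linarith
  have htp : (0 : ℝ) < t := by exact_mod_cast p2
  set e0 : ℝ := CE * (H * eSD κ c R M) with he0
  have he0n : 0 ≤ e0 := mul_nonneg hCE (mul_nonneg hHn (eSD_nonneg (by linarith) (by linarith)))
  set E1 : ℝ := D * (R : ℝ) ^ 3 * H * (CE * (R : ℝ) ^ (-20 : ℝ)) with hE1
  have hE1n : 0 ≤ E1 := by positivity
  have hRt : ((R : ℝ) / t) ^ 2 ≤ 4 * ((R : ℝ) ^ (2 : ℕ) * (M : ℝ) ^ (-2 + 6 * κ)) := by
    have e1 : 1 / (t : ℝ) ≤ 2 * (M : ℝ) ^ (-(1 - 3 * κ)) := by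
      rw [Real.rpow_neg hM0.le, div_le_iff₀ htp]
      have h1 : 0 < (M : ℝ) ^ (1 - 3 * κ) := by positivity
      have h2 : 2 * ((M : ℝ) ^ (1 - 3 * κ))⁻¹ * t = 2 * t / (M : ℝ) ^ (1 - 3 * κ) := by
        rw [div_eq_mul_inv]; ring
      rw [h2, one_le_div h1]
      exact p4
    have e2 : ((M : ℝ) ^ (-(1 - 3 * κ))) ^ (2 : ℕ) = (M : ℝ) ^ (-2 + 6 * κ) := by
      rw [← Real.rpow_natCast, ← Real.rpow_mul hM0.le]; congr 1; push_cast; ring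
    have e3 : 0 ≤ 1 / (t : ℝ) := by positivity
    calc ((R : ℝ) / t) ^ 2 = (R : ℝ) ^ 2 * (1 / (t : ℝ)) ^ 2 := by ring
      _ ≤ (R : ℝ) ^ 2 * (2 * (M : ℝ) ^ (-(1 - 3 * κ))) ^ 2 :=
        mul_le_mul_of_nonneg_left (pow_le_pow_left₀ e3 e1 2) (by positivity)
      _ = 4 * ((R : ℝ) ^ (2 : ℕ) * ((M : ℝ) ^ (-(1 - 3 * κ))) ^ (2 : ℕ)) := by ring
      _ = _ := by rw [e2]
  have hnum := num_B hκ hκc hκ2 hc hc1 hRr (m := (M : ℝ)) (by linarith) hMle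
  have x1 : (R : ℝ) ^ (-(1 / 10 : ℝ)) ≤ (R : ℝ) ^ (-γ) :=
    Real.rpow_le_rpow_of_exponent_le hRr (by linarith)
  have x2 : (R : ℝ) ^ (-(c / 2)) ≤ (R : ℝ) ^ (-γ) :=
    Real.rpow_le_rpow_of_exponent_le hRr (by linarith)
  have hpart1 : 225 * ((R : ℝ) / t) ^ 2 * e0 ≤ 900 * CE * H * 69 * (R : ℝ) ^ (-γ) := by
    calc 225 * ((R : ℝ) / t) ^ 2 * e0
        ≤ 225 * (4 * ((R : ℝ) ^ (2 : ℕ) * (M : ℝ) ^ (-2 + 6 * κ))) * e0 :=
          mul_le_mul_of_nonneg_right (mul_le_mul_of_nonneg_left hRt (by norm_num)) he0n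
      _ = 900 * CE * H * ((R : ℝ) ^ (2 : ℕ) * (M : ℝ) ^ (-2 + 6 * κ) * eSD κ c R M) := by
        rw [he0]; ring
      _ ≤ 900 * CE * H * (69 * (R : ℝ) ^ (-γ)) := by
        apply mul_le_mul_of_nonneg_left _ (by positivity)
        linarith
      _ = _ := by ring
  have hpart2 : 225 * ((R : ℝ) / t) ^ 2 * E1 ≤ 225 * D * H * CE * (R : ℝ) ^ (-γ) := by
    have ht1 : (1 : ℝ) ≤ t := by exact_mod_cast p2
    have h1 : ((R : ℝ) / t) ^ 2 ≤ (R : ℝ) ^ 2 := by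
      apply pow_le_pow_left₀ (by positivity)
      exact div_le_self hRp.le ht1
    have h2 : (R : ℝ) ^ 2 * ((R : ℝ) ^ 3 * (R : ℝ) ^ (-20 : ℝ)) = (R : ℝ) ^ (-15 : ℝ) := by
      rw [← Real.rpow_natCast, ← Real.rpow_natCast, ← Real.rpow_add hRp, ← Real.rpow_add hRp]
      norm_num
    have h3 : (R : ℝ) ^ (-15 : ℝ) ≤ (R : ℝ) ^ (-γ) :=
      Real.rpow_le_rpow_of_exponent_le hRr (by linarith)
    calc 225 * ((R : ℝ) / t) ^ 2 * E1 ≤ 225 * (R : ℝ) ^ 2 * E1 :=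
          mul_le_mul_of_nonneg_right (mul_le_mul_of_nonneg_left h1 (by norm_num)) hE1n
      _ = 225 * D * H * CE * ((R : ℝ) ^ 2 * ((R : ℝ) ^ 3 * (R : ℝ) ^ (-20 : ℝ))) := by
        rw [hE1]; ring
      _ ≤ 225 * D * H * CE * (R : ℝ) ^ (-γ) := by
        rw [h2]; exact mul_le_mul_of_nonneg_left h3 (by positivity)
  calc 225 * ((R : ℝ) / t) ^ 2 * (e0 + E1)
      = 225 * ((R : ℝ) / t) ^ 2 * e0 + 225 * ((R : ℝ) / t) ^ 2 * E1 := by ring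
    _ ≤ 900 * CE * H * 69 * (R : ℝ) ^ (-γ) + 225 * D * H * CE * (R : ℝ) ^ (-γ) :=
      add_le_add hpart1 hpart2
    _ = _ := by ring

/-- small `R` -/
theorem small_R {γ : ℝ} (hγp : 0 < γ) {R R2 : ℕ} (hR : 1 ≤ R) (h : ¬ R2 ≤ R) {D C0 K N : ℝ}
    (hD : 0 ≤ D) (hC0 : 0 ≤ C0) (hK : 0 ≤ K) (h1 : N ≤ D * (R : ℝ) ^ 3 * C0) :
    N ≤ (K + D * (R2 : ℝ) ^ 3 * C0 * (R2 : ℝ) ^ γ) * (R : ℝ) ^ (-γ) := by
  have hRp : (0 : ℝ) < R := by exact_mod_cast hR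
  have hRR' : (R : ℝ) ≤ R2 := by exact_mod_cast (not_le.1 h).le
  have h2 : (1 : ℝ) ≤ (R2 : ℝ) ^ γ * (R : ℝ) ^ (-γ) := by
    rw [Real.rpow_neg hRp.le, ← div_eq_mul_inv, one_le_div (by positivity)]
    exact Real.rpow_le_rpow hRp.le hRR' hγp.le
  have h3 : D * (R : ℝ) ^ 3 * C0 ≤ D * (R2 : ℝ) ^ 3 * C0 := by
    have := pow_le_pow_left₀ hRp.le hRR' 3
    exact mul_le_mul_of_nonneg_right (mul_le_mul_of_nonneg_left this hD) hC0
  have h4 : 0 ≤ K * (R : ℝ) ^ (-γ) := by positivity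
  have h5 : 0 ≤ D * (R2 : ℝ) ^ 3 * C0 := by positivity
  calc N ≤ D * (R : ℝ) ^ 3 * C0 := h1
    _ ≤ D * (R2 : ℝ) ^ 3 * C0 * 1 := by rw [mul_one]; exact h3
    _ ≤ D * (R2 : ℝ) ^ 3 * C0 * ((R2 : ℝ) ^ γ * (R : ℝ) ^ (-γ)) :=
      mul_le_mul_of_nonneg_left h2 h5
    _ ≤ _ := by linarith

/-- geometry of one cell -/
theorem cell_geom {T : Temp} {R M t : ℕ} (hfin : T.faceSet.Finite) {B : Set Pt} {C0 : ℝ}
    (hC0 : 0 ≤ C0) (hM1 : 1 ≤ M) (htM : t ≤ M) (h2 : 3 * (C0 + 1) * (M : ℝ) ≤ R) {k y : Pt}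
    (hd : dn k y ≤ t) (hs : (R : ℝ) ≤ C0 * dF (B ∩ T.faceSet) y) :
    (box k M : Set Pt) ⊆ B ∧ 2 * M ≤ dF T.faceSet k := by
  have hfinB : (B ∩ T.faceSet).Finite := hfin.subset Set.inter_subset_right
  have hlip := G45.dF_lip (G45.exists_notMem hfinB) y k
  rw [G45.dn_comm] at hlip
  have h3M : 3 * M ≤ dF (B ∩ T.faceSet) y := by
    have h1 : (R : ℝ) ≤ (C0 + 1) * dF (B ∩ T.faceSet) y := by
      have : (0 : ℝ) ≤ dF (B ∩ T.faceSet) y := by positivity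
      linarith
    have h4 : (C0 + 1) * (3 * (M : ℝ)) ≤ (C0 + 1) * dF (B ∩ T.faceSet) y := by linarith
    have h5 : 3 * (M : ℝ) ≤ dF (B ∩ T.faceSet) y := le_of_mul_le_mul_left h4 (by linarith)
    exact_mod_cast h5
  have h2M : 2 * M ≤ dF (B ∩ T.faceSet) k := by omega
  refine ⟨?_, h2M.trans (J.dF_mono Set.inter_subset_right hfin _)⟩
  intro v hv
  have hv' := G45.mem_box.1 (Finset.mem_coe.1 hv)
  have : v ∈ B ∩ T.faceSet := G45.mem_of_lt_dF (x := k) (by omega)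
  exact this.1

/-- The Schwinger–Dyson equation for a macroscopic bump `ψ` and a factor `F` which does not depend
on the configuration inside `B`. -/
theorem sd_macro (hSD : E_SD) (hex : L_expl) (Θ C0 : ℝ) (hC0 : 0 ≤ C0) :
    ∃ c > (0 : ℝ), ∃ C : ℝ, 0 ≤ C ∧ ∀ (R : ℕ) (T : Temp), 1 ≤ R → Fits T R →
    ∀ (B : Set Pt) (ψ : Pt → ℝ), IsBump (0, 0) R C0 ψ →
    (∀ y, ψ y ≠ 0 → (R : ℝ) ≤ C0 * dF (B ∩ T.faceSet) y) →
    ∀ F : Conf → ℂ, (∀ ω ∈ DD T.V, ‖F ω‖ ≤ 1) → InvIn T.V B F →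
    ∀ φ : Pt → ℝ, (∀ y, |φ y| ≤ C0 / (R : ℝ) ^ 2) → ∀ θ : ℝ, |θ| ≤ Θ →
    ‖Ex T.V (fun ω => F ω * sdTerm φ ψ θ ω)‖ ≤ C * (R : ℝ) ^ (-c) := by
  classical
  obtain ⟨c0, hc0, hSD⟩ := hSD
  set c := min c0 1 with hcdef
  have hc : 0 < c := lt_min hc0 (by norm_num)
  have hc1 : c ≤ 1 := min_le_right _ _
  set a : ℝ := 1 / 2 with hadef
  have ha : 0 < a := by norm_num
  set κ := min (min (a / 40) (c / 40)) (1 / 200) with hκdef
  have hκ : 0 < κ := lt_min (lt_min (by linarith) (by linarith)) (by norm_num)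
  have hκa : κ ≤ a / 40 := (min_le_left _ _).trans (min_le_left _ _)
  have hκc : κ ≤ c / 40 := (min_le_left _ _).trans (min_le_right _ _)
  have hκ2 : κ ≤ 1 / 200 := min_le_right _ _
  obtain ⟨CE0, hE⟩ := hSD κ (a / 2) 20 Θ C0 hκ (by linarith) (by linarith) (by norm_num)
  set CE := max CE0 0 with hCEdef
  have hCE : 0 ≤ CE := le_max_right _ _
  obtain ⟨R0, hR01, hpar⟩ := params hκ hκa hκ2 (le_refl (1 / 2 : ℝ))
  have hR1ex : ∀ᶠ R : ℕ in Filter.atTop, 3 * (C0 + 1) ≤ (R : ℝ) ^ (1 / 10 : ℝ) :=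
    ((tendsto_rpow_atTop (by norm_num)).comp tendsto_natCast_atTop_atTop).eventually_ge_atTop _
  obtain ⟨R1, hR1⟩ := Filter.eventually_atTop.1 hR1ex
  set R2 := max R0 R1 with hR2
  set γ := min (1 / 10) (c / 2) with hγ
  have hγp : 0 < γ := lt_min (by norm_num) (by linarith)
  have hγ1 : γ ≤ 1 / 10 := min_le_left _ _
  have hγ2 : γ ≤ c / 2 := min_le_right _ _
  set H : ℝ := 16 * (32 ^ 4 * C0) with hH
  have hHn : 0 ≤ H := by positivity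
  set D : ℝ := 1400 + 9 * |Θ| * C0 with hD
  have hDn : 0 ≤ D := by positivity
  refine ⟨γ, hγp, 900 * CE * H * 69 + 225 * D * H * CE + D * (R2 : ℝ) ^ 3 * C0 * (R2 : ℝ) ^ γ,
    by positivity, ?_⟩
  intro R T hR hT B ψ hψ hsupp F hF1 hF φ hφ θ hθ
  have hRr : (1 : ℝ) ≤ R := by exact_mod_cast hR
  have hRp : (0 : ℝ) < R := by linarith
  have hΘ : 0 ≤ Θ := (abs_nonneg _).trans hθ
  have habs : |Θ| = Θ := abs_of_nonneg hΘ
  have hfin : T.faceSet.Finite := fs_of_sub_box hT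
  by_cases hRR : R2 ≤ R
  swap
  · refine small_R (K := 900 * CE * H * 69 + 225 * D * H * CE) hγp hR hRR hDn hC0 (by positivity) ?_
    apply norm_avg_le_const (by positivity)
    intro ω hω
    rw [norm_mul]
    refine (mul_le_of_le_one_left (norm_nonneg _) (hF1 ω hω)).trans ?_
    have := norm_sdTerm_le hR hT hω hψ le_rfl hC0 hφ hθ
    rw [hD, habs]
    exact this
  -- large `R`
  have hRR0 : R0 ≤ R := (le_max_left _ _).trans hRR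
  have hRR1 := hR1 R ((le_max_right _ _).trans hRR)
  obtain ⟨hs64, hsM, hMR, hM2, hpar⟩ := hpar R hRR0
  set M := ⌊(R : ℝ) ^ (9 / 10 : ℝ)⌋₊ with hM
  obtain ⟨p1, p2, p3, p4⟩ := hpar M (by omega)
  set t := ⌊(M : ℝ) ^ (1 - 3 * κ)⌋₊ with ht
  have hMle : (M : ℝ) ≤ (R : ℝ) ^ (9 / 10 : ℝ) := Nat.floor_le (by positivity)
  have hM1 : 1 ≤ M := by omega
  have hM1r : (1 : ℝ) ≤ M := by exact_mod_cast hM1
  have htM : t ≤ M := by omega
  have htR : t ≤ R := htM.trans hMR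
  have h3CM : 3 * (C0 + 1) * (M : ℝ) ≤ R := by
    calc 3 * (C0 + 1) * (M : ℝ) ≤ (R : ℝ) ^ (1 / 10 : ℝ) * (R : ℝ) ^ (9 / 10 : ℝ) :=
          mul_le_mul hRR1 hMle (by positivity) (by positivity)
      _ = R := by rw [← Real.rpow_add hRp]; norm_num
  -- good events
  have hE' : ∀ (R : ℕ) (T : Temp), 1 ≤ R → Fits T R → ∀ (x : Pt) (n : ℕ), (R : ℝ) ^ (a / 2) ≤ n →
      2 * n ≤ dF T.faceSet x → ∃ G : Set Conf, Pr T.V (fun ω => ω ∉ G) ≤ CE * (R : ℝ) ^ (-20 : ℝ) ∧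
      ∀ ω ∈ DD T.V, ω ∈ G → ∀ (H : ℝ) (ψ φ : Pt → ℝ), IsBump x ⌊(n : ℝ) ^ (1 - 3 * κ)⌋₊ H ψ →
      (∀ y, |φ y| ≤ C0 / (R : ℝ) ^ 2) → ∀ θ : ℝ, |θ| ≤ Θ →
      ‖cEx T.V (outside (Fk T.V 0) (box x n))
          (fun ω' => (hf ω' (lap ψ) : ℂ) * Complex.exp (Complex.I * θ * hf ω' φ)) ω +
        Complex.I * θ * (2 / Real.pi) * pair ψ φ * cEx T.V (outside (Fk T.V 0) (box x n))
          (fun ω' => Complex.exp (Complex.I * θ * hf ω' φ)) ω‖ ≤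
        CE * H * (R : ℝ) ^ κ *
          ((n : ℝ) ^ (-1 + κ) + (n / R : ℝ) ^ 2 * (n : ℝ) ^ (-c0) + (n / R : ℝ) ^ 4) := by
    intro R T hR hT x n h1 h2
    obtain ⟨G, hG1, hG2⟩ := hE R T hR hT x n h1 h2
    refine ⟨G, hG1.trans ?_, fun ω hω hg H ψ φ hψ hφ θ hθ => (hG2 ω hω hg H ψ φ hψ hφ θ hθ).trans ?_⟩
    · exact mul_le_mul_of_nonneg_right (le_max_left _ _) (by positivity)
    · have := IsBump.nonneg hψ
      have h3 : CE0 ≤ CE := le_max_left _ _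
      gcongr
  obtain ⟨G, hGp, hGg⟩ := good_events hE' hCE hR hT
  set e0 : ℝ := CE * (H * eSD κ c R M) with he0
  have he0n : 0 ≤ e0 := mul_nonneg hCE (mul_nonneg hHn (eSD_nonneg (by linarith) (by linarith)))
  have hcell : ∀ k ∈ G45.cellset t R,
      ‖Ex T.V (fun ω => F ω * sdTerm φ (fun y => G45.rho t k y * ψ y) θ ω)‖ ≤
      e0 + D * (R : ℝ) ^ 3 * H * (CE * (R : ℝ) ^ (-20 : ℝ)) := by
    intro k _
    have hbump := bump_cell p2 htR hψ k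
    by_cases hz : ∃ y, G45.rho t k y * ψ y ≠ 0
    · obtain ⟨y, hy⟩ := hz
      have hy1 : G45.rho t k y ≠ 0 := left_ne_zero_of_mul hy
      have hy2 : ψ y ≠ 0 := right_ne_zero_of_mul hy
      have hd := G45.rho_supp p2 hy1
      have hs := hsupp y hy2
      obtain ⟨hbox, h2F⟩ := cell_geom hfin hC0 hM1 htM h3CM hd hs
      have hb := cell_bound hex hF1 hF hbox (G := G (G45.corner t k) M)
        (W := sdTerm φ (fun y => G45.rho t k y * ψ y) θ) (b := e0) (b' := D * (R : ℝ) ^ 3 * H)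
        he0n (by positivity)
        (by
          intro ω' h' hg
          refine (hGg (G45.corner t k) M p1 h2F ω' h' hg H _ φ hbump hφ θ hθ).trans ?_
          have h1 := eSD_mono (κ := κ) (R := (R : ℝ)) (by linarith) hM1r (min_le_left c0 1)
          have h2 : CE * H * (R : ℝ) ^ κ * ((M : ℝ) ^ (-1 + κ) +
              (M / R : ℝ) ^ 2 * (M : ℝ) ^ (-c0) + (M / R : ℝ) ^ 4) =
              CE * (H * eSD κ c0 R M) := by unfold eSD; ring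
          rw [h2, he0]
          gcongr)
        (fun ω' h' => by
          have := norm_sdTerm_le hR hT h' hbump htR hC0 hφ hθ
          rw [hD, habs]
          exact this)
      refine hb.trans ?_
      have := hGp (G45.corner t k) M
      have h6 : 0 ≤ D * (R : ℝ) ^ 3 * H := by positivity
      have := mul_le_mul_of_nonneg_left this h6
      linarith
    · have hz' : (fun y => G45.rho t k y * ψ y) = fun _ => 0 := by
        funext y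
        by_contra hne
        exact hz ⟨y, hne⟩
      rw [hz']
      simp only [sdTerm_zero, mul_zero]
      rw [Ex_eq_avg, avg_zero, norm_zero]
      positivity
  have hsum : Ex T.V (fun ω => F ω * sdTerm φ ψ θ ω) = ∑ k ∈ G45.cellset t R,
      Ex T.V (fun ω => F ω * sdTerm φ (fun y => G45.rho t k y * ψ y) θ ω) := by
    rw [Ex_eq_avg]
    have h1 : avg (DD T.V) (fun ω => F ω * sdTerm φ ψ θ ω) = avg (DD T.V) (fun ω =>
        ∑ k ∈ G45.cellset t R, F ω * sdTerm φ (fun y => G45.rho t k y * ψ y) θ ω) := by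
      refine avg_congr (fun ω _ => ?_)
      rw [sdTerm_sum (fun k _ => IsBump.fs (bump_cell p2 htR hψ k))
        (fun y => sum_cells (t := t) hψ y) φ θ ω, Finset.mul_sum]
    rw [h1, avg_sum]
    rfl
  have hcard := card_cellset p2 htR
  set E1 : ℝ := D * (R : ℝ) ^ 3 * H * (CE * (R : ℝ) ^ (-20 : ℝ)) with hE1
  have hE1n : 0 ≤ E1 := by positivity
  have hmain : ‖Ex T.V (fun ω => F ω * sdTerm φ ψ θ ω)‖ ≤ 225 * ((R : ℝ) / t) ^ 2 * (e0 + E1) := by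
    rw [hsum]
    calc _ ≤ ∑ k ∈ G45.cellset t R, (e0 + E1) :=
          (norm_sum_le _ _).trans (Finset.sum_le_sum hcell)
      _ = (G45.cellset t R).card * (e0 + E1) := by rw [Finset.sum_const, nsmul_eq_mul]
      _ ≤ _ := by gcongr
  have hnt := num_total hκ hκc hκ2 hc hc1 hγ1 hγ2 hR hM1 hM2 hMle p2 p4 hCE hHn hDn
  have hlast : 0 ≤ D * (R2 : ℝ) ^ 3 * C0 * (R2 : ℝ) ^ γ * (R : ℝ) ^ (-γ) := by positivity
  calc _ ≤ _ := hmain
    _ ≤ _ := hnt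
    _ ≤ _ := by linarith

end Vale.Agent.P155.SW730
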