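import Vale.Agent.P155.K.Bump
import Vale.Agent.P155.U.Bump

/-!
# P155, block SW3: the discrete Laplacian of lattice samples
-/

namespace Vale.Agent.P155.SW730

open Vale.Agent.P155 Vale.Agent.P155.K Vale.Agent.P155.UK Filter Topology MeasureTheory
open scoped ContDiff

/-- derivative in the direction `e` -/
noncomputable def De (e : ℂ) (f : ℂ → ℝ) (z : ℂ) : ℝ := fderiv ℝ f z e

theorem contDiff_De {f : ℂ → ℝ} (hf : ContDiff ℝ ∞ f) (e : ℂ) : ContDiff ℝ ∞ (De e f) :=
  (hf.fderiv_right (m := ∞) (by simp)).clm_apply contDiff_const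

theorem cpt_De {f : ℂ → ℝ} (hf : HasCompactSupport f) (e : ℂ) : HasCompactSupport (De e f) := by
  have h := hf.fderiv (𝕜 := ℝ)
  exact h.mono (fun z hz => by
    intro h0
    apply hz
    unfold De
    rw [h0]
    rfl)

/-- second symmetric difference -/
theorem sd_bound {f : ℂ → ℝ} (hf : ContDiff ℝ ∞ f) (hc : HasCompactSupport f) :
    ∃ C : ℝ, 0 ≤ C ∧ ∀ z h : ℂ, |f (z + h) + f (z - h) - 2 * f z| ≤ C * ‖h‖ ^ 2 := by
  obtain ⟨M, hM0, hM⟩ := exists_BD hf hc
  refine ⟨M 2, hM0 2, fun z h => ?_⟩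
  have h1 := hM.iter (h := h) (δ := ‖h‖) rfl 2
  have h2 := h1.2 0 (z - h)
  rw [norm_iteratedFDeriv_zero] at h2
  simp only [Function.iterate_succ, Function.iterate_zero, Function.comp, id, Tsh, zero_add] at h2
  have e : f (z + h) + f (z - h) - 2 * f z =
      f (z - h + h + h) - f (z - h + h) - (f (z - h + h) - f (z - h)) := by
    rw [sub_add_cancel]
    ring
  rw [e]
  rw [Real.norm_eq_abs] at h2
  linarith

/-- one-dimensional fourth order estimate -/
theorem fourth {f : ℂ → ℝ} (hf : ContDiff ℝ ∞ f) (hc : HasCompactSupport f) {e : ℂ}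
    (he : ‖e‖ = 1) : ∃ C : ℝ, 0 ≤ C ∧ ∀ (z : ℂ) (h : ℝ), 0 ≤ h →
      |f (z + h * e) + f (z - h * e) - 2 * f z - h ^ 2 * De e (De e f) z| ≤ C * h ^ 4 := by
  obtain ⟨C, hC0, hC⟩ := sd_bound (contDiff_De (contDiff_De hf e) e) (cpt_De (cpt_De hc e) e)
  refine ⟨C, hC0, fun z h hh => ?_⟩
  have hder : ∀ {g : ℂ → ℝ}, ContDiff ℝ ∞ g → ∀ s : ℝ,
      HasDerivAt (fun s : ℝ => g (z + s * e)) (De e g (z + s * e)) s := by
    intro g hg s
    have h1 : HasDerivAt (fun s : ℝ => z + s * e) e s := by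
      have := ((Complex.ofRealCLM.hasDerivAt (x := s)).mul_const e).const_add z
      simpa using this
    have h2 : HasFDerivAt g (fderiv ℝ g (z + s * e)) (z + s * e) :=
      ((hg.differentiable (by simp)) _).hasFDerivAt
    exact h2.comp_hasDerivAt s h1
  have hder' : ∀ {g : ℂ → ℝ}, ContDiff ℝ ∞ g → ∀ s : ℝ,
      HasDerivAt (fun s : ℝ => g (z - s * e)) (-De e g (z - s * e)) s := by
    intro g hg s
    have h1 : HasDerivAt (fun s : ℝ => z - s * e) (-e) s := by
      have := ((Complex.ofRealCLM.hasDerivAt (x := s)).mul_const e).const_sub z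
      simpa using this
    have h2 : HasFDerivAt g (fderiv ℝ g (z - s * e)) (z - s * e) :=
      ((hg.differentiable (by simp)) _).hasFDerivAt
    refine (h2.comp_hasDerivAt s h1).congr_deriv ?_
    unfold De
    rw [map_neg]
  set D1 := De e f with hD1
  set D2 := De e D1 with hD2
  have hs1 : ContDiff ℝ ∞ D1 := contDiff_De hf e
  -- the first derivative
  have hk1 : ∀ s ∈ Set.Icc (0 : ℝ) h, ‖(D1 (z + s * e) - D1 (z - s * e) - 2 * s * D2 z) -
      (D1 (z + (0 : ℝ) * e) - D1 (z - (0 : ℝ) * e) - 2 * 0 * D2 z)‖ ≤ C * h ^ 2 * (s - 0) := by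
    apply norm_image_sub_le_of_norm_deriv_le_segment'
      (f := fun s : ℝ => D1 (z + s * e) - D1 (z - s * e) - 2 * s * D2 z)
      (f' := fun s : ℝ => D2 (z + s * e) + D2 (z - s * e) - 2 * D2 z)
    · intro s _
      have h3 : HasDerivAt (fun s : ℝ => 2 * s * D2 z) (2 * D2 z) s := by
        have := ((hasDerivAt_id s).const_mul 2).mul_const (D2 z)
        simpa using this
      refine ((((hder hs1 s).sub (hder' hs1 s)).sub h3).congr_deriv ?_).hasDerivWithinAt
      rw [← hD2]
      ring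
    · intro s hs
      rw [Real.norm_eq_abs]
      refine (hC z (s * e)).trans ?_
      rw [norm_mul, he, mul_one, Complex.norm_real, Real.norm_of_nonneg hs.1]
      have : s ^ 2 ≤ h ^ 2 := pow_le_pow_left₀ hs.1 hs.2.le 2
      exact mul_le_mul_of_nonneg_left this hC0
  have hk2 := norm_image_sub_le_of_norm_deriv_le_segment'
      (f := fun s : ℝ => f (z + s * e) + f (z - s * e) - 2 * f z - s ^ 2 * D2 z)
      (f' := fun s : ℝ => D1 (z + s * e) - D1 (z - s * e) - 2 * s * D2 z)
      (C := C * h ^ 3) (a := 0) (b := h)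
      (by
        intro s _
        have h3 : HasDerivAt (fun s : ℝ => s ^ 2 * D2 z) (2 * s * D2 z) s := by
          have := ((hasDerivAt_id s).pow 2).mul_const (D2 z)
          refine this.congr_deriv ?_
          simp
        refine (((((hder hf s).add (hder' hf s)).sub_const (2 * f z)).sub h3).congr_deriv
          ?_).hasDerivWithinAt
        rw [← hD1]
        ring)
      (by
        intro s hs
        have h4 := hk1 s ⟨hs.1, hs.2.le⟩
        have h5 : (D1 (z + (0 : ℝ) * e) - D1 (z - (0 : ℝ) * e) - 2 * 0 * D2 z) = 0 := by simp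
        rw [h5, sub_zero, sub_zero] at h4
        refine h4.trans ?_
        calc C * h ^ 2 * s ≤ C * h ^ 2 * h :=
              mul_le_mul_of_nonneg_left hs.2.le (by positivity)
          _ = C * h ^ 3 := by ring)
      h ⟨hh, le_rfl⟩
  simp only [Complex.ofReal_zero, zero_mul, add_zero, sub_zero] at hk2
  have h6 : f z + f z - 2 * f z - 0 ^ 2 * D2 z = 0 := by ring
  rw [h6, sub_zero, Real.norm_eq_abs] at hk2
  refine hk2.trans (le_of_eq ?_)
  ring

theorem pos_sub1 (δ : ℝ) (a : ℂ) (y : Pt) : pos δ a (y.1 - 1, y.2) = pos δ a y - (δ : ℂ) := by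
  apply Complex.ext
  · simp [pos]
    ring
  · simp [pos]

theorem pos_sub2 (δ : ℝ) (a : ℂ) (y : Pt) : pos δ a (y.1, y.2 - 1) = pos δ a y - δ * Complex.I := by
  apply Complex.ext
  · simp [pos]
  · simp [pos]
    ring

/-- The discrete Laplacian of a lattice sample is the lattice charge of the Laplacian, up to
`δ ^ 4`. -/
theorem lap_res {f : ℂ → ℝ} (hf : ContDiff ℝ ∞ f) (hc : HasCompactSupport f) :
    ∃ C : ℝ, 0 ≤ C ∧ ∀ (δ : ℝ) (a : ℂ) (y : Pt), 0 ≤ δ →
      |lap (res δ a f) y - phin δ a (lapC f) y| ≤ C * δ ^ 4 := by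
  obtain ⟨C1, h10, h1⟩ := fourth hf hc (e := 1) (by simp)
  obtain ⟨C2, h20, h2⟩ := fourth hf hc (e := Complex.I) (by simp)
  refine ⟨C1 + C2, by positivity, fun δ a y hδ => ?_⟩
  have e1 := h1 (pos δ a y) δ hδ
  have e2 := h2 (pos δ a y) δ hδ
  rw [mul_one] at e1
  have e : lap (res δ a f) y - phin δ a (lapC f) y =
      (f (pos δ a y + δ) + f (pos δ a y - δ) - 2 * f (pos δ a y) -
        δ ^ 2 * De 1 (De 1 f) (pos δ a y)) +
      (f (pos δ a y + δ * Complex.I) + f (pos δ a y - δ * Complex.I) - 2 * f (pos δ a y) -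
        δ ^ 2 * De Complex.I (De Complex.I f) (pos δ a y)) := by
    unfold lap phin
    simp only [res, pos_add1, pos_add2, pos_sub1, pos_sub2]
    have : lapC f (pos δ a y) = De 1 (De 1 f) (pos δ a y) +
      De Complex.I (De Complex.I f) (pos δ a y) := rfl
    rw [this]
    ring
  rw [e]
  calc |_ + _| ≤ |_| + |_| := abs_add_le _ _
    _ ≤ C1 * δ ^ 4 + C2 * δ ^ 4 := add_le_add e1 e2
    _ = _ := by ring

end Vale.Agent.P155.SW730
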