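import Vale.Agent.P155.SW730.Inv
import Vale.Agent.P155.K.Dir

/-!
# P155, block SW1: translation of the field inside `B`, with a factor not depending on the inside
-/

namespace Vale.Agent.P155.SW730

open Finset Skel J

/-- **Block (1) of (SW).** -/
def SD_F : Prop := ∀ (Θ C0 : ℝ), ∃ c > (0 : ℝ), ∃ C : ℝ, ∀ (R : ℕ) (T : Temp), 1 ≤ R → Fits T R →
  ∀ (B : Set Pt) (χ ψ : Pt → ℝ), (Function.support χ).Finite → (∀ y, |χ y| ≤ C0 / (R : ℝ) ^ 2) →
  IsBump (0, 0) R C0 ψ → (∀ y, ψ y ≠ 0 → (R : ℝ) ≤ C0 * dF (B ∩ T.faceSet) y) →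
  ∀ F : Conf → ℂ, (∀ ω ∈ DD T.V, ‖F ω‖ ≤ 1) → InvIn T.V B F → ∀ θ t : ℝ, |θ| ≤ Θ → |t| ≤ C0 →
  ‖Ex T.V (fun ω => F ω *
        Complex.exp (Complex.I * θ * hf ω (fun x => χ x - t * lap ψ x))) -
      (Real.exp (-(2 / Real.pi * θ ^ 2 * (t * pair ψ χ + t ^ 2 / 2 * energy ψ))) : ℝ) *
        Ex T.V (fun ω => F ω * Complex.exp (Complex.I * θ * hf ω χ))‖ ≤ C * (R : ℝ) ^ (-c)

theorem hf_lin {χ ψ : Pt → ℝ} (hχ : FS χ) (hψ : FS ψ) (ω : Conf) (s : ℝ) :
    hf ω (fun x => χ x - s * lap ψ x) = hf ω χ - s * hf ω (lap ψ) := by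
  have h2 : FS (lap ψ) := fs_lap hψ
  unfold hf
  rw [mul_finsum, ← finsum_sub_distrib (hχ.mul_right _)
    ((h2.mul_right (fun x => (h ω x : ℝ))).mul_left (fun _ => s))]
  exact finsum_congr (fun x => by ring)

theorem pair_lin {χ ψ : Pt → ℝ} (hψ : FS ψ) (s : ℝ) :
    pair ψ (fun x => χ x - s * lap ψ x) = pair ψ χ + s * energy ψ := by
  have he : energy ψ = ∑ᶠ x : Pt, (- lap ψ x) * ψ x := by
    rw [← K.eform_self, K.eform_eq hψ]
  unfold pair
  rw [he, mul_finsum, ← finsum_add_distrib (hψ.mul_right _)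
    ((hψ.mul_left (fun x => - lap ψ x)).mul_left (fun _ => s))]
  exact finsum_congr (fun x => by ring)

theorem energy_le {R : ℕ} (hR : 1 ≤ R) {C0 : ℝ} {ψ : Pt → ℝ} (hψ : IsBump (0, 0) R C0 ψ) :
    |energy ψ| ≤ 18 * C0 ^ 2 := by
  have hRr : (1 : ℝ) ≤ R := by exact_mod_cast hR
  have hC0 : 0 ≤ C0 := IsBump.nonneg hψ
  have he : energy ψ = ∑ᶠ x : Pt, ψ x * (- lap ψ x) := by
    rw [← K.eform_self, K.eform_eq (IsBump.fs hψ)]
    exact finsum_congr (fun x => by ring)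
  rw [he]
  have h1 : |∑ᶠ x : Pt, ψ x * (- lap ψ x)| ≤ (2 * R + 1) ^ 2 * (C0 * (2 * C0 / (R : ℝ) ^ 2)) := by
    apply abs_finsum_le (x := (0, 0))
    · intro y
      rw [abs_mul, abs_neg]
      exact mul_le_mul (IsBump.abs_le hψ y) (abs_lap_le hψ y) (abs_nonneg _) hC0
    · intro y hy
      rw [hψ.1 y hy, zero_mul]
  refine h1.trans ?_
  have e1 : (2 * (R : ℝ) + 1) ^ 2 ≤ (3 * R) ^ 2 := by
    apply pow_le_pow_left₀ (by positivity)
    linarith
  calc (2 * (R : ℝ) + 1) ^ 2 * (C0 * (2 * C0 / (R : ℝ) ^ 2))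
      ≤ (3 * R) ^ 2 * (C0 * (2 * C0 / (R : ℝ) ^ 2)) := by
        apply mul_le_mul_of_nonneg_right e1 (by positivity)
    _ = 18 * C0 ^ 2 := by field_simp; ring

theorem pair_le {R : ℕ} (hR : 1 ≤ R) {C0 : ℝ} {ψ χ : Pt → ℝ} (hψ : IsBump (0, 0) R C0 ψ)
    (hχ : ∀ y, |χ y| ≤ C0 / (R : ℝ) ^ 2) : |pair ψ χ| ≤ 9 * C0 ^ 2 := by
  have hRr : (1 : ℝ) ≤ R := by exact_mod_cast hR
  have hC0 : 0 ≤ C0 := IsBump.nonneg hψ
  have h1 : |pair ψ χ| ≤ (2 * R + 1) ^ 2 * (C0 * (C0 / (R : ℝ) ^ 2)) := by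
    unfold pair
    apply abs_finsum_le (x := (0, 0))
    · intro y
      rw [abs_mul]
      exact mul_le_mul (IsBump.abs_le hψ y) (hχ y) (abs_nonneg _) hC0
    · intro y hy
      rw [hψ.1 y hy, zero_mul]
  refine h1.trans ?_
  have e1 : (2 * (R : ℝ) + 1) ^ 2 ≤ (3 * R) ^ 2 := by
    apply pow_le_pow_left₀ (by positivity)
    linarith
  calc (2 * (R : ℝ) + 1) ^ 2 * (C0 * (C0 / (R : ℝ) ^ 2))
      ≤ (3 * R) ^ 2 * (C0 * (C0 / (R : ℝ) ^ 2)) := by
        apply mul_le_mul_of_nonneg_right e1 (by positivity)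
    _ = 9 * C0 ^ 2 := by field_simp; ring

/-- The differential equation, integrated: an abstract finite average `E[F e^{iθ(X - s t Y)}]`. -/
theorem gronwall {α : Type*} (A : Finset α) (F : α → ℂ) (X Y : α → ℝ) {θ t p q ε Q : ℝ}
    (hε : 0 ≤ ε)
    (hsd : ∀ s : ℝ, 0 ≤ s → s ≤ 1 → ‖avg A (fun a => F a * ((Y a : ℂ) *
        Complex.exp (Complex.I * θ * (X a - s * t * Y a : ℝ)) +
        Complex.I * θ * (2 / Real.pi) * ((p + s * t * q : ℝ) : ℂ) *
          Complex.exp (Complex.I * θ * (X a - s * t * Y a : ℝ))))‖ ≤ ε)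
    (hQ : ∀ s : ℝ, 0 ≤ s → s ≤ 1 →
      |2 / Real.pi * θ ^ 2 * (s * t * p + (s * t) ^ 2 / 2 * q)| ≤ Q) :
    ‖avg A (fun a => F a * Complex.exp (Complex.I * θ * (X a - t * Y a : ℝ))) -
      (Real.exp (-(2 / Real.pi * θ ^ 2 * (t * p + t ^ 2 / 2 * q))) : ℝ) *
        avg A (fun a => F a * Complex.exp (Complex.I * θ * (X a : ℝ)))‖ ≤
      |θ| * |t| * ε * Real.exp Q * Real.exp Q := by
  set g : ℝ → ℂ := fun s => avg A (fun a => F a *
    Complex.exp (Complex.I * θ * (X a - s * t * Y a : ℝ))) with hg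
  set w : ℝ → ℝ := fun s => 2 / Real.pi * θ ^ 2 * (s * t * p + (s * t) ^ 2 / 2 * q) with hw
  set f : ℝ → ℂ := fun s => g s * Complex.exp ((w s : ℝ) : ℂ) with hf
  set e : ℝ → ℂ := fun s => avg A (fun a => F a * ((Y a : ℂ) *
        Complex.exp (Complex.I * θ * (X a - s * t * Y a : ℝ)) +
        Complex.I * θ * (2 / Real.pi) * ((p + s * t * q : ℝ) : ℂ) *
          Complex.exp (Complex.I * θ * (X a - s * t * Y a : ℝ)))) with he
  have hgd : ∀ s : ℝ, HasDerivAt g (-(Complex.I * θ * t) * avg A (fun a => F a * ((Y a : ℂ) *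
      Complex.exp (Complex.I * θ * (X a - s * t * Y a : ℝ))))) s := by
    intro s
    have h1 : ∀ a : α, HasDerivAt (fun s : ℝ => F a *
        Complex.exp (Complex.I * θ * (X a - s * t * Y a : ℝ)))
        (-(Complex.I * θ * t) * (F a * ((Y a : ℂ) *
          Complex.exp (Complex.I * θ * (X a - s * t * Y a : ℝ))))) s := by
      intro a
      have h2 : HasDerivAt (fun s : ℝ => X a - s * t * Y a) (-(t * Y a)) s := by
        have := (((hasDerivAt_id s).mul_const t).mul_const (Y a)).const_sub (X a)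
        refine this.congr_deriv ?_
        simp
      have h3 := ((h2.ofReal_comp.const_mul (Complex.I * θ)).cexp).const_mul (F a)
      refine h3.congr_deriv ?_
      push_cast
      ring
    have h4 : HasDerivAt (fun s : ℝ => ∑ a ∈ A, F a *
        Complex.exp (Complex.I * θ * (X a - s * t * Y a : ℝ)))
        (∑ a ∈ A, (-(Complex.I * θ * t) * (F a * ((Y a : ℂ) *
          Complex.exp (Complex.I * θ * (X a - s * t * Y a : ℝ)))))) s :=
      HasDerivAt.fun_sum (fun a _ => h1 a)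
    have h5 := h4.const_smul ((A.card : ℝ)⁻¹)
    refine h5.congr_deriv ?_
    rw [← Finset.mul_sum]
    unfold avg
    simp only [Complex.real_smul]
    ring
  have hwd : ∀ s : ℝ, HasDerivAt w (2 / Real.pi * θ ^ 2 * (t * (p + s * t * q))) s := by
    intro s
    have h1 : HasDerivAt (fun s : ℝ => s * t * p) (t * p) s := by
      refine (((hasDerivAt_id s).mul_const t).mul_const p).congr_deriv ?_
      simp
    have h2 : HasDerivAt (fun s : ℝ => (s * t) ^ 2 / 2 * q) (s * t * t * q) s := by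
      refine (((((hasDerivAt_id s).mul_const t).pow 2).div_const 2).mul_const q).congr_deriv ?_
      change ((2 : ℕ) : ℝ) * (s * t) ^ (2 - 1) * (1 * t) / 2 * q = s * t * t * q
      rw [show (2 - 1 : ℕ) = 1 from rfl, pow_one]
      push_cast
      ring
    refine ((h1.add h2).const_mul (2 / Real.pi * θ ^ 2)).congr_deriv ?_
    ring
  have hfd : ∀ s : ℝ, HasDerivAt f (-(Complex.I * θ * t) * e s * Complex.exp ((w s : ℝ) : ℂ)) s := by
    intro s
    have h := (hgd s).mul ((hwd s).ofReal_comp.cexp)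
    refine h.congr_deriv ?_
    have hee : e s = avg A (fun a => F a * ((Y a : ℂ) *
        Complex.exp (Complex.I * θ * (X a - s * t * Y a : ℝ)))) +
        Complex.I * θ * (2 / Real.pi) * ((p + s * t * q : ℝ) : ℂ) * g s := by
      simp only [he, hg]
      rw [← avg_cmul_left, ← avg_add]
      refine avg_congr (fun a _ => ?_)
      ring
    rw [hee]
    have hI : Complex.I * Complex.I = -1 := Complex.I_mul_I
    push_cast
    linear_combination ((θ : ℂ) * t * (θ * (2 / Real.pi) * (p + s * t * q)) * g s *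
      Complex.exp (w s)) * hI
  have hbd : ∀ s ∈ Set.Ico (0 : ℝ) 1,
      ‖-(Complex.I * θ * t) * e s * Complex.exp ((w s : ℝ) : ℂ)‖ ≤ |θ| * |t| * ε * Real.exp Q := by
    intro s hs
    have h1 := hsd s hs.1 hs.2.le
    have h2 := (le_abs_self _).trans (hQ s hs.1 hs.2.le)
    rw [norm_mul, norm_mul, norm_neg, norm_mul, norm_mul, Complex.norm_I, one_mul,
      Complex.norm_real, Complex.norm_real, Real.norm_eq_abs, Real.norm_eq_abs,
      Complex.norm_exp_ofReal]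
    have h3 : Real.exp (w s) ≤ Real.exp Q := Real.exp_le_exp.2 h2
    exact mul_le_mul (mul_le_mul_of_nonneg_left h1 (by positivity)) h3 (Real.exp_pos _).le
      (by positivity)
  have hmv := norm_image_sub_le_of_norm_deriv_le_segment_01'
    (fun s _ => (hfd s).hasDerivWithinAt) hbd
  have hw1 : w 1 = 2 / Real.pi * θ ^ 2 * (t * p + t ^ 2 / 2 * q) := by
    simp only [hw, one_mul]
  have hw0 : w 0 = 0 := by simp [hw]
  have hf1 : f 1 = avg A (fun a => F a * Complex.exp (Complex.I * θ * (X a - t * Y a : ℝ))) *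
      Complex.exp ((w 1 : ℝ) : ℂ) := by
    simp only [hf, hg, one_mul]
  have hf0 : f 0 = avg A (fun a => F a * Complex.exp (Complex.I * θ * (X a : ℝ))) := by
    simp only [hf, hg, zero_mul, sub_zero, hw0, Complex.ofReal_zero, Complex.exp_zero, mul_one]
  rw [← hw1]
  have hkey : avg A (fun a => F a * Complex.exp (Complex.I * θ * (X a - t * Y a : ℝ))) -
      (Real.exp (-(w 1)) : ℝ) * avg A (fun a => F a * Complex.exp (Complex.I * θ * (X a : ℝ))) =
      (Real.exp (-(w 1)) : ℝ) * (f 1 - f 0) := by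
    have hE : ((Real.exp (-(w 1)) : ℝ) : ℂ) * Complex.exp ((w 1 : ℝ) : ℂ) = 1 := by
      rw [← Complex.ofReal_exp, ← Complex.ofReal_mul, ← Real.exp_add]
      simp
    rw [hf1, hf0]
    linear_combination (-(avg A (fun a => F a *
      Complex.exp (Complex.I * θ * (X a - t * Y a : ℝ))))) * hE
  rw [hkey, norm_mul, Complex.norm_real, Real.norm_of_nonneg (Real.exp_pos _).le]
  have hQ1 : Real.exp (-(w 1)) ≤ Real.exp Q :=
    Real.exp_le_exp.2 ((neg_le_abs _).trans (hQ 1 (by norm_num) le_rfl))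
  calc Real.exp (-(w 1)) * ‖f 1 - f 0‖ ≤ Real.exp Q * (|θ| * |t| * ε * Real.exp Q) :=
        mul_le_mul hQ1 hmv (norm_nonneg _) (Real.exp_pos _).le
    _ = _ := by ring

/-- **Block (1) of (SW)**, from the local Schwinger–Dyson equation. -/
theorem sd_F (hSD : E_SD) (hex : L_expl) : SD_F := by
  intro Θ C0
  by_cases hC0 : 0 ≤ C0
  swap
  · refine ⟨1, by norm_num, 0, fun R T _ _ B χ ψ _ _ hψ => ?_⟩
    exact absurd (IsBump.nonneg hψ) hC0
  set C1 := C0 + 2 * C0 ^ 2 with hC1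
  have hC1n : 0 ≤ C1 := by positivity
  have hC01 : C0 ≤ C1 := by rw [hC1]; nlinarith [sq_nonneg C0]
  obtain ⟨c, hc, C, hC, hmac⟩ := sd_macro hSD hex Θ C1 hC1n
  set Q := Θ ^ 2 * (C0 * (9 * C0 ^ 2) + C0 ^ 2 * (18 * C0 ^ 2)) with hQdef
  refine ⟨c, hc, |Θ| * C0 * C * Real.exp Q * Real.exp Q, ?_⟩
  intro R T hR hT B χ ψ hχf hχ hψ hsupp F hF1 hF θ t hθ ht
  have hRr : (1 : ℝ) ≤ R := by exact_mod_cast hR
  have hRp : (0 : ℝ) < R := by linarith
  have hΘ : 0 ≤ Θ := (abs_nonneg _).trans hθ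
  have hψf : FS ψ := IsBump.fs hψ
  have hpair := pair_le hR hψ hχ
  have hen := energy_le hR hψ
  have hε : 0 ≤ C * (R : ℝ) ^ (-c) := by positivity
  have hst : ∀ s : ℝ, 0 ≤ s → s ≤ 1 → |s * t| ≤ C0 := by
    intro s h0 h1
    rw [abs_mul, abs_of_nonneg h0]
    calc s * |t| ≤ 1 * |t| := mul_le_mul_of_nonneg_right h1 (abs_nonneg _)
      _ ≤ C0 := by rw [one_mul]; exact ht
  have hg := gronwall (DD T.V) F (fun ω => hf ω χ) (fun ω => hf ω (lap ψ)) (θ := θ) (t := t)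
    (p := pair ψ χ) (q := energy ψ) (Q := Q) hε
    (by
      intro s h0 h1
      have hφ : ∀ y, |χ y - s * t * lap ψ y| ≤ C1 / (R : ℝ) ^ 2 := by
        intro y
        have e1 := abs_lap_le hψ y
        have e2 := hst s h0 h1
        calc |χ y - s * t * lap ψ y| ≤ |χ y| + |s * t * lap ψ y| := abs_sub _ _
          _ ≤ C0 / (R : ℝ) ^ 2 + C0 * (2 * C0 / (R : ℝ) ^ 2) := by
            rw [abs_mul (s * t)]
            exact add_le_add (hχ y) (mul_le_mul e2 e1 (abs_nonneg _) hC0)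
          _ = C1 / (R : ℝ) ^ 2 := by rw [hC1]; ring
      have := hmac R T hR hT B ψ (isBump_mono hψ hC01)
        (fun y hy => (hsupp y hy).trans (mul_le_mul_of_nonneg_right hC01 (by positivity)))
        F hF1 hF (fun x => χ x - s * t * lap ψ x) hφ θ hθ
      refine le_trans (le_of_eq ?_) this
      congr 1
      refine avg_congr (fun ω _ => ?_)
      unfold sdTerm
      rw [hf_lin hχf hψf, pair_lin hψf])
    (by
      intro s h0 h1
      have e2 := hst s h0 h1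
      have hp : |2 / Real.pi * θ ^ 2| ≤ Θ ^ 2 := by
        rw [abs_mul, abs_of_nonneg (by positivity : (0 : ℝ) ≤ 2 / Real.pi), abs_of_nonneg (sq_nonneg θ)]
        have h2 : θ ^ 2 ≤ Θ ^ 2 := sq_le_sq' (by linarith [neg_abs_le θ]) ((le_abs_self θ).trans hθ)
        calc 2 / Real.pi * θ ^ 2 ≤ 1 * θ ^ 2 :=
              mul_le_mul_of_nonneg_right two_div_pi_le_one (sq_nonneg _)
          _ ≤ Θ ^ 2 := by rw [one_mul]; exact h2
      rw [abs_mul, hQdef]
      refine mul_le_mul hp ?_ (abs_nonneg _) (sq_nonneg _)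
      refine (abs_add_le _ _).trans (add_le_add ?_ ?_)
      · rw [abs_mul]
        exact mul_le_mul e2 hpair (abs_nonneg _) hC0
      · rw [abs_mul]
        refine mul_le_mul ?_ hen (abs_nonneg _) (sq_nonneg _)
        rw [abs_div, abs_pow, abs_two]
        have : |s * t| ^ 2 ≤ C0 ^ 2 := pow_le_pow_left₀ (abs_nonneg _) e2 2
        have h3 : 0 ≤ C0 ^ 2 := sq_nonneg _
        linarith)
  have hfin : |θ| * |t| * (C * (R : ℝ) ^ (-c)) * Real.exp Q * Real.exp Q ≤
      |Θ| * C0 * C * Real.exp Q * Real.exp Q * (R : ℝ) ^ (-c) := by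
    have h1 : |θ| * |t| ≤ |Θ| * C0 :=
      mul_le_mul (hθ.trans (le_abs_self _)) ht (abs_nonneg _) (abs_nonneg _)
    calc |θ| * |t| * (C * (R : ℝ) ^ (-c)) * Real.exp Q * Real.exp Q
        = |θ| * |t| * (C * (R : ℝ) ^ (-c) * Real.exp Q * Real.exp Q) := by ring
      _ ≤ |Θ| * C0 * (C * (R : ℝ) ^ (-c) * Real.exp Q * Real.exp Q) :=
        mul_le_mul_of_nonneg_right h1 (by positivity)
      _ = _ := by ring
  refine le_trans (le_of_eq ?_) (hg.trans hfin)
  rw [Ex_eq_avg, Ex_eq_avg]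
  congr 2
  refine avg_congr (fun ω _ => ?_)
  rw [hf_lin hχf hψf]

end Vale.Agent.P155.SW730
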