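import Vale.Agent.P155.J.Main
import Vale.Agent.P155.G45.Whitney

/-!
# P155, block SW1: the grid partition of a macroscopic bump
-/

namespace Vale.Agent.P155.SW730

open Finset Vale.Agent.P155.G45

theorem lap_eq_D (ψ : Pt → ℝ) (x : Pt) :
    lap ψ x = (Dx^[2] (Dy^[0] ψ)) (x.1 - 1, x.2) + (Dx^[0] (Dy^[2] ψ)) (x.1, x.2 - 1) := by
  simp only [Function.iterate_succ, Function.iterate_zero, Function.comp, id, Dx, Dy, lap]
  have e1 : x.1 - 1 + 1 = x.1 := by ring
  have e2 : x.2 - 1 + 1 = x.2 := by ring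
  rw [e1, e2]
  ring

theorem abs_lap_le {x : Pt} {t : ℕ} {H : ℝ} {ψ : Pt → ℝ} (h : IsBump x t H ψ) (y : Pt) :
    |lap ψ y| ≤ 2 * H / (t : ℝ) ^ 2 := by
  rw [lap_eq_D]
  have h1 := h.2 2 0 (by norm_num) (y.1 - 1, y.2)
  have h2 := h.2 0 2 (by norm_num) (y.1, y.2 - 1)
  calc |_ + _| ≤ |_| + |_| := abs_add_le _ _
    _ ≤ H * ((t : ℝ)⁻¹) ^ (2 + 0) + H * ((t : ℝ)⁻¹) ^ (0 + 2) := add_le_add h1 h2
    _ = 2 * H / (t : ℝ) ^ 2 := by
      simp only [add_zero, zero_add, inv_pow]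
      ring

/-- one cell of the partition -/
theorem bump_cell {t R : ℕ} (ht : 1 ≤ t) (htR : t ≤ R) {C0 : ℝ} {ψ : Pt → ℝ}
    (hψ : IsBump (0, 0) R C0 ψ) (k : Pt) :
    IsBump (corner t k) t (16 * (32 ^ 4 * C0)) (fun y => rho t k y * ψ y) := by
  have hC0 : 0 ≤ C0 := J.IsBump.nonneg hψ
  have ht0 : (0 : ℝ) < t := by exact_mod_cast ht
  refine ⟨?_, ?_⟩
  · intro y hy
    have : rho t k y = 0 := by
      by_contra hne
      exact hy (G45.mem_box.2 (rho_supp ht hne))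
    change rho t k y * ψ y = 0
    rw [this, zero_mul]
  · intro a b hab y
    have h1 := leibniz 4 (rho t k) ψ (32 ^ 4) C0 (t : ℝ)⁻¹ y
      (fun a b h => rho_diff t ht k a b h y)
      (fun a b i j h => (hψ.2 a b (by omega) _).trans (by
        apply mul_le_mul_of_nonneg_left _ hC0
        apply pow_le_pow_left₀ (by positivity)
        apply inv_anti₀ ht0
        exact_mod_cast htR)) a b hab
    refine h1.trans ?_
    apply mul_le_mul_of_nonneg_right _ (by positivity)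
    apply mul_le_mul_of_nonneg_right _ (by positivity)
    calc (2 : ℝ) ^ (a + b) ≤ 2 ^ 4 := pow_le_pow_right₀ (by norm_num) hab
      _ = 16 := by norm_num

theorem card_cellset {t R : ℕ} (ht : 1 ≤ t) (htR : t ≤ R) :
    (((cellset t R).card : ℕ) : ℝ) ≤ 225 * ((R : ℝ) / t) ^ 2 := by
  have ht0 : (0 : ℝ) < t := by exact_mod_cast ht
  have hcs := cs_pos t
  have h3 := le_cs t
  set m := (R + t) / cs t + 1 with hm
  have hsub : cellset t R ⊆ box (0, 0) m := by
    intro k hk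
    unfold cellset at hk
    obtain ⟨z, hz, rfl⟩ := Finset.mem_image.1 hk
    have hp : (0 : ℤ) < cs t := by exact_mod_cast hcs
    have key : ∀ a : ℤ, -((R + t : ℕ) : ℤ) ≤ a → a ≤ ((R + t : ℕ) : ℤ) →
        -(m : ℤ) ≤ a / (cs t : ℤ) ∧ a / (cs t : ℤ) ≤ m := by
      intro a h1 h2
      have h5 : (((R + t) / cs t : ℕ) : ℤ) = ((R + t : ℕ) : ℤ) / (cs t : ℤ) := by simp
      have hb : ((R + t : ℕ) : ℤ) < (cs t : ℤ) * m := by
        have := Nat.lt_mul_div_succ (R + t) hcs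
        rw [hm]
        exact_mod_cast this
      constructor
      · rw [Int.le_ediv_iff_mul_le hp]
        nlinarith
      · apply Int.ediv_le_of_le_mul hp
        nlinarith
    rw [J.mem_box] at hz ⊢
    simp only [zero_sub, zero_add] at hz ⊢
    unfold cidx
    simp only
    obtain ⟨a1, a2, a3, a4⟩ := hz
    exact ⟨(key _ a1 a2).1, (key _ a1 a2).2, (key _ a3 a4).1, (key _ a3 a4).2⟩
  have hc : (cellset t R).card ≤ (2 * m + 1) ^ 2 := by
    rw [← G45.card_box (0, 0) m]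
    exact Finset.card_le_card hsub
  have hm2 : (m : ℝ) ≤ 6 * ((R : ℝ) / t) + 1 := by
    have h1 : (((R + t) / cs t : ℕ) : ℝ) ≤ ((R + t : ℕ) : ℝ) / (cs t : ℝ) := Nat.cast_div_le
    have h2 : ((R + t : ℕ) : ℝ) / (cs t : ℝ) ≤ (2 * R) / ((t : ℝ) / 3) := by
      apply div_le_div₀ (by positivity) _ (by positivity) _
      · push_cast
        have : (t : ℝ) ≤ R := by exact_mod_cast htR
        linarith
      · have : (t : ℝ) ≤ 3 * (cs t : ℝ) := by exact_mod_cast h3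
        linarith
    have h4 : (2 * (R : ℝ)) / ((t : ℝ) / 3) = 6 * ((R : ℝ) / t) := by field_simp; ring
    rw [hm]
    push_cast
    push_cast at h1 h2
    linarith
  have hRt : 1 ≤ (R : ℝ) / t := by
    rw [one_le_div ht0]; exact_mod_cast htR
  calc (((cellset t R).card : ℕ) : ℝ) ≤ (((2 * m + 1) ^ 2 : ℕ) : ℝ) := by exact_mod_cast hc
    _ = (2 * (m : ℝ) + 1) ^ 2 := by push_cast; ring
    _ ≤ (15 * ((R : ℝ) / t)) ^ 2 := by
      apply pow_le_pow_left₀ (by positivity)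
      linarith
    _ = 225 * ((R : ℝ) / t) ^ 2 := by ring

/-- the partition sums to `ψ` -/
theorem sum_cells {t R : ℕ} {C0 : ℝ} {ψ : Pt → ℝ} (hψ : IsBump (0, 0) R C0 ψ) (y : Pt) :
    ψ y = ∑ k ∈ cellset t R, rho t k y * ψ y := by
  by_cases hy : dn (0, 0) y ≤ R
  · rw [← Finset.sum_mul, rho_sum hy, one_mul]
  · have : ψ y = 0 := hψ.1 y (fun h => hy (G45.mem_box.1 h))
    rw [this]
    simp

end Vale.Agent.P155.SW730
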