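import Vale.Agent.P155.SW730.Main
import Vale.Agent.P155.SW730.Lap
import Vale.Agent.P155.SW733.Macro
import Vale.Agent.P155.K.Disc

/-!
# P155, block SW3: the identity `SD_F` along Temperleyan approximations
-/

namespace Vale.Agent.P155.SW730

open Vale.Agent.P155 Vale.Agent.P155.K Vale.Agent.P155.UK MeasureTheory Filter Topology


theorem pt_eq_pos (δ : ℝ) (a : ℂ) (v : Pt) : Q1.pt δ a v = pos δ a v := by
  apply Complex.ext
  · simp [pos, Q1.pt]
  · simp [pos, Q1.pt]

/-- lattice samples of a smooth function are bumps of height `O(1)` -/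
theorem isBump_res {φ : ℂ → ℝ} (hs : ContDiff ℝ ((⊤ : ℕ∞) : WithTop ℕ∞) φ)
    (hc : HasCompactSupport φ) {A : ℝ} (hA : 0 ≤ A) : ∃ C0 : ℝ, 0 ≤ C0 ∧ ∀ (δ : ℝ) (a : ℂ) (R : ℕ),
      0 < δ → 1 ≤ R → δ * R ≤ A → (∀ y, φ (pos δ a y) ≠ 0 → y ∈ box (0, 0) R) →
      IsBump (0, 0) R C0 (res δ a φ) := by
  obtain ⟨M, hM0, hM⟩ := exists_BD hs hc
  refine ⟨(M 0 + M 1 + M 2 + M 3 + M 4) * (A + 1) ^ 4, by
    have := hM0 0; have := hM0 1; have := hM0 2; have := hM0 3; have := hM0 4
    positivity, fun δ a R hδ hR hδR hsupp => ⟨?_, ?_⟩⟩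
  · intro y hy
    unfold res
    by_contra h
    exact hy (hsupp y h)
  · intro i j hij y
    have hR0 : (0 : ℝ) < R := by positivity
    refine (diff_bound hM hδ a i j y).trans ?_
    have h1 : M (i + j) ≤ M 0 + M 1 + M 2 + M 3 + M 4 := by
      have := hM0 0; have := hM0 1; have := hM0 2; have := hM0 3; have := hM0 4
      have h2 : i + j = 0 ∨ i + j = 1 ∨ i + j = 2 ∨ i + j = 3 ∨ i + j = 4 := by omega
      rcases h2 with h | h | h | h | h <;> rw [h] <;> linarith
    have h3 : δ ≤ A / R := by rwa [le_div_iff₀ hR0]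
    have h4 : δ ^ (i + j) ≤ (A + 1) ^ 4 * ((R : ℝ)⁻¹) ^ (i + j) := by
      calc δ ^ (i + j) ≤ (A / R) ^ (i + j) := by gcongr
        _ = A ^ (i + j) * ((R : ℝ)⁻¹) ^ (i + j) := by rw [div_eq_mul_inv, mul_pow]
        _ ≤ (A + 1) ^ 4 * ((R : ℝ)⁻¹) ^ (i + j) := by
            apply mul_le_mul_of_nonneg_right _ (by positivity)
            calc A ^ (i + j) ≤ (A + 1) ^ (i + j) := by gcongr; linarith
              _ ≤ (A + 1) ^ 4 := by
                  apply pow_le_pow_right₀
                  · linarith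
                  · omega
    calc δ ^ (i + j) * M (i + j) ≤ ((A + 1) ^ 4 * ((R : ℝ)⁻¹) ^ (i + j)) *
          (M 0 + M 1 + M 2 + M 3 + M 4) := mul_le_mul h4 h1 (hM0 _) (by positivity)
      _ = _ := by ring

theorem phin_le {φ : ℂ → ℝ} (hs : Continuous φ) (hc : HasCompactSupport φ) {A : ℝ}
    (_hA : 0 ≤ A) :
    ∃ C0 : ℝ, 0 ≤ C0 ∧ ∀ (δ : ℝ) (a : ℂ) (R : ℕ), 0 < δ → 1 ≤ R → δ * R ≤ A →
      ∀ y, |phin δ a φ y| ≤ C0 / (R : ℝ) ^ 2 := by
  obtain ⟨M, hM0, hM⟩ := exists_bound hs hc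
  refine ⟨A ^ 2 * M, by positivity, fun δ a R hδ hR hδR y => ?_⟩
  have hR0 : (0 : ℝ) < R := by positivity
  unfold phin
  rw [abs_mul, abs_of_nonneg (sq_nonneg δ), le_div_iff₀ (by positivity)]
  calc δ ^ 2 * |φ (pos δ a y)| * (R : ℝ) ^ 2 = (δ * R) ^ 2 * |φ (pos δ a y)| := by ring
    _ ≤ A ^ 2 * M := by
      apply mul_le_mul _ (hM _) (abs_nonneg _) (by positivity)
      exact pow_le_pow_left₀ (by positivity) hδR 2

theorem norm_exp_sub (x y : ℝ) :
    ‖Complex.exp (Complex.I * x) - Complex.exp (Complex.I * y)‖ ≤ |x - y| := by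
  have h1 : Complex.exp (Complex.I * x) - Complex.exp (Complex.I * y) =
      Complex.exp (Complex.I * y) * (Complex.exp (Complex.I * ((x - y : ℝ) : ℂ)) - 1) := by
    rw [mul_sub, ← Complex.exp_add, mul_one]
    congr 2
    push_cast
    ring
  rw [h1, norm_mul]
  have h2 : ‖Complex.exp (Complex.I * y)‖ = 1 := by
    rw [mul_comm]; exact Complex.norm_exp_ofReal_mul_I _
  rw [h2, one_mul]
  have := Real.norm_exp_I_mul_ofReal_sub_one_le (x := x - y)
  simpa [Real.norm_eq_abs] using this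

section
variable {Ω : Set ℂ} (S : TempApprox Ω)

/-- `θ = √(π/2)` -/
noncomputable def th : ℝ := Real.sqrt (Real.pi / 2)

theorem th_nonneg : 0 ≤ th := Real.sqrt_nonneg _

theorem th_sq : 2 / Real.pi * th ^ 2 = 1 := by
  unfold th
  rw [Real.sq_sqrt (by positivity)]
  field_simp

/-- The discrete translation identity along the approximations; `F` is any function which does
not change when the configuration is changed inside `Bm`. -/
theorem sd_lim (hSD : SD_F) (hΩ : IsOpen Ω) (hb : Bornology.IsBounded Ω) {Bm : Set ℂ}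
    (hBm : IsOpen Bm) {χ ψ : ℂ → ℝ} (hχ : K.IsTest Ω χ) (hψ : K.IsTest Ω ψ)
    (hψB : tsupport ψ ⊆ Bm) {ε : ℝ} (hε : 0 < ε) : ∀ᶠ n in atTop, ∀ F : Conf → ℂ,
    (∀ ω ∈ DD (S.T n).V, ‖F ω‖ ≤ 1) →
    InvIn (S.T n).V (SW733.vs (S.δ n) (S.a n) Bm) F →
    ‖Ex (S.T n).V (fun ω => F ω * Complex.exp (Complex.I * (th *
        hf ω (phin (S.δ n) (S.a n) (fun z => χ z - lapC ψ z)) : ℝ))) -
      (Real.exp (-(∫ z, ψ z * χ z) - (∫ z, ‖fderiv ℝ ψ z‖ ^ 2) / 2) : ℝ) *
      Ex (S.T n).V (fun ω => F ω * Complex.exp (Complex.I * (th *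
        hf ω (phin (S.δ n) (S.a n) χ) : ℝ)))‖ ≤ ε := by
  obtain ⟨ϱ1, hϱ10, hϱ1⟩ := bounded_face S hb
  obtain ⟨ϱ2, hϱ20, hϱ2⟩ := exists_ball hψ.cpt
  obtain ⟨ϱ3, hϱ30, hϱ3⟩ := exists_ball hχ.cpt
  obtain ⟨Ca, hCa⟩ := S.bdd
  have hCa0 : 0 ≤ Ca := (norm_nonneg _).trans (hCa 0)
  set A := ϱ1 + ϱ2 + Ca + 1 with hA
  have hApos : 0 < A := by positivity
  -- distance of the support to the complement
  obtain ⟨η, hη, hηK⟩ := hψ.cpt.isCompact.exists_cthickening_subset_open (hΩ.inter hBm)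
    (Set.subset_inter hψ.sub hψB)
  have hKc : IsCompact (Metric.cthickening η (tsupport ψ)) := hψ.cpt.isCompact.cthickening
  obtain ⟨C1, hC10, hC1⟩ := isBump_res hψ.smooth hψ.cpt (A := A + 1) (by positivity)
  obtain ⟨C2, hC20, hC2⟩ := phin_le hχ.smooth.continuous hχ.cpt (A := A + 1) (by positivity)
  obtain ⟨C3, hC30, hC3⟩ := lap_res hψ.smooth hψ.cpt
  set C0 := max (max C1 C2) (max (2 * (A + 1) / η) 1) with hC0
  have hC01 : C1 ≤ C0 := (le_max_left _ _).trans (le_max_left _ _)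
  have hC02 : C2 ≤ C0 := (le_max_right _ _).trans (le_max_left _ _)
  have hC03 : 2 * (A + 1) / η ≤ C0 := (le_max_left _ _).trans (le_max_right _ _)
  have hC04 : 1 ≤ C0 := (le_max_right _ _).trans (le_max_right _ _)
  obtain ⟨c, hc, C, hC⟩ := hSD th C0
  -- the sizes
  set R : ℕ → ℕ := fun n => ⌈A / S.δ n⌉₊ with hR
  have hRtop : Tendsto (fun n => (R n : ℝ)) atTop atTop := by
    have h1 : Tendsto (fun n => A / S.δ n) atTop atTop := by
      have h2 : Tendsto (fun n => (S.δ n)⁻¹) atTop atTop :=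
        tendsto_inv_nhdsGT_zero.comp (tendsto_nhdsWithin_iff.2 ⟨S.mesh,
          Eventually.of_forall (fun n => S.pos n)⟩)
      exact h2.const_mul_atTop hApos
    exact tendsto_atTop_mono (fun n => Nat.le_ceil _) h1
  have hlim : Tendsto (fun n => C * (R n : ℝ) ^ (-c)) atTop (𝓝 0) := by
    have := ((tendsto_rpow_neg_atTop hc).comp hRtop).const_mul C
    simpa using this
  -- limits of the exponent
  set E0 : ℝ := Real.exp (-(∫ z, ψ z * χ z) - (∫ z, ‖fderiv ℝ ψ z‖ ^ 2) / 2) with hE0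
  set En : ℕ → ℝ := fun n => Real.exp (-(2 / Real.pi * th ^ 2 *
    (1 * pair (res (S.δ n) (S.a n) ψ) (phin (S.δ n) (S.a n) χ) +
      1 ^ 2 / 2 * energy (res (S.δ n) (S.a n) ψ)))) with hEn
  have hElim : Tendsto En atTop (𝓝 E0) := by
    have h1 := tendsto_pair S.pos S.mesh S.a hχ.smooth.continuous hχ.cpt hψ.smooth.continuous
      hψ.cpt
    have h2 := tendsto_energy S.pos S.mesh S.a hψ.smooth hψ.cpt
    have h3 : ∀ n, En n = Real.exp (-(pair (phin (S.δ n) (S.a n) χ) (res (S.δ n) (S.a n) ψ)) -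
        energy (res (S.δ n) (S.a n) ψ) / 2) := by
      intro n
      simp only [hEn]
      rw [th_sq]
      have : pair (res (S.δ n) (S.a n) ψ) (phin (S.δ n) (S.a n) χ) =
          pair (phin (S.δ n) (S.a n) χ) (res (S.δ n) (S.a n) ψ) := by
        unfold pair
        exact finsum_congr (fun x => mul_comm _ _)
      rw [this]
      congr 1
      ring
    have h4 : E0 = Real.exp (-(∫ z, χ z * ψ z) - (∫ z, gradSq ψ z) / 2) := by
      rw [hE0]
      simp_rw [gradSq_eq]
      have : (fun z => ψ z * χ z) = fun z => χ z * ψ z := by funext z; ring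
      rw [this]
    rw [h4, show En = _ from funext h3]
    exact (Real.continuous_exp.tendsto _).comp (h1.neg.sub (h2.div_const 2))
  -- the error of the Laplacian
  set L0 : ℝ := |th| * ((2 * (A + 2) + 1) ^ 2 * (C3 * (2 * (A + 2) + 5))) with hL0
  have hLlim : Tendsto (fun n => L0 * S.δ n) atTop (𝓝 0) := by
    simpa using S.mesh.const_mul L0
  have hd1 : ∀ᶠ n in atTop, S.δ n < min 1 A := (tendsto_order.1 S.mesh).2 _ (by positivity)
  have hE3 : ∀ᶠ n in atTop, |En n - E0| < ε / 3 := by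
    have := (tendsto_iff_norm_sub_tendsto_zero.1 hElim)
    exact (tendsto_order.1 this).2 _ (by positivity)
  filter_upwards [hϱ1, (tendsto_order.1 hlim).2 (ε / 3) (by positivity), hd1,
    S.cara₁ _ (hηK.trans Set.inter_subset_left) hKc, hE3,
    (tendsto_order.1 hLlim).2 (ε / 3) (by positivity)]
    with n hface hCε hdn hcar hEε hLε F hF hFm
  have hd := S.pos n
  have hdA : S.δ n < A := hdn.trans_le (min_le_right _ _)
  have hd1' : S.δ n < 1 := hdn.trans_le (min_le_left _ _)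
  have hR1 : 1 ≤ R n := by
    apply Nat.one_le_iff_ne_zero.2
    have : 0 < A / S.δ n := by positivity
    exact (Nat.ceil_pos.2 this).ne'
  have hRge : A / S.δ n ≤ R n := Nat.le_ceil _
  have hRle : S.δ n * R n ≤ A + 1 := by
    have h1 := (Nat.ceil_lt_add_one (a := A / S.δ n) (by positivity)).le
    calc S.δ n * R n ≤ S.δ n * (A / S.δ n + 1) := by gcongr
      _ = A + S.δ n := by field_simp
      _ ≤ A + 1 := by linarith
  have hfits : Skel.Fits (S.T n) (R n) := by
    intro y hy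
    have h1 := hface y hy _ (pos_mem_sqr _ _)
    apply mem_box_of_pos hd hRge
    have := hCa n
    linarith
  have hbox : ∀ y, ψ (pos (S.δ n) (S.a n) y) ≠ 0 → y ∈ box (0, 0) (R n) := by
    intro y hy
    have h1 := hϱ2 _ hy
    apply mem_box_of_pos hd hRge
    have := hCa n
    linarith
  have hbump1 := hC1 (S.δ n) (S.a n) (R n) hd hR1 hRle hbox
  have hbump : IsBump (0, 0) (R n) C0 (res (S.δ n) (S.a n) ψ) := J.isBump_mono hbump1 hC01
  have hχb : ∀ y, |phin (S.δ n) (S.a n) χ y| ≤ C0 / (R n : ℝ) ^ 2 := by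
    intro y
    exact (hC2 (S.δ n) (S.a n) (R n) hd hR1 hRle y).trans
      (div_le_div_of_nonneg_right hC02 (by positivity))
  have hχf : (Function.support (phin (S.δ n) (S.a n) χ)).Finite := by
    have := (fin0_res hd (S.a n) hχ.cpt).mul_left (fun _ => S.δ n ^ 2)
    exact this
  have hfar : ∀ y, res (S.δ n) (S.a n) ψ y ≠ 0 → (R n : ℝ) ≤
      C0 * dF (SW733.vs (S.δ n) (S.a n) Bm ∩ (S.T n).faceSet) y := by
    intro y hy
    have hfinB : (SW733.vs (S.δ n) (S.a n) Bm ∩ (S.T n).faceSet).Finite :=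
      (A1.faceSet_finite (S.T n)).subset Set.inter_subset_right
    obtain ⟨q, hq, hqd⟩ := G45.exists_dF (G45.exists_notMem hfinB) y
    have h2 : η < ‖pos (S.δ n) (S.a n) q - pos (S.δ n) (S.a n) y‖ := by
      by_contra hcon
      push Not at hcon
      have h3 : pos (S.δ n) (S.a n) q ∈ Metric.cthickening η (tsupport ψ) := by
        apply Metric.mem_cthickening_of_dist_le _ (pos (S.δ n) (S.a n) y) η _
          (subset_tsupport ψ hy)
        rw [dist_eq_norm]
        exact hcon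
      have h4 := (KConn.mem_interior_region_iff hd).1 (hcar h3) q (pos_mem_sqr _ _)
      apply hq
      refine ⟨?_, h4⟩
      change Q1.pt _ _ q ∈ Bm
      rw [pt_eq_pos]
      exact (hηK h3).2
    have h5 := norm_pos_le hd (S.a n) y q
    set dd := dF (SW733.vs (S.δ n) (S.a n) Bm ∩ (S.T n).faceSet) y with hdd
    have h6 : ((dinf y q : ℤ) : ℝ) = (dd : ℝ) := by
      rw [← hqd]
      unfold dn
      have h7 := dinf_nonneg y q
      have h8 : (((dinf y q).toNat : ℕ) : ℤ) = dinf y q := Int.toNat_of_nonneg h7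
      exact_mod_cast h8.symm
    rw [h6] at h5
    have h9 : η < 2 * S.δ n * (dd : ℝ) := h2.trans_le h5
    have h11 : (R n : ℝ) ≤ (A + 1) / S.δ n := by
      rw [le_div_iff₀ hd]
      linarith
    calc (R n : ℝ) ≤ (A + 1) / S.δ n := h11
      _ ≤ 2 * (A + 1) / η * (dd : ℝ) := by
          rw [div_mul_eq_mul_div, div_le_div_iff₀ hd hη]
          nlinarith
      _ ≤ C0 * dd := by gcongr
  have key := hC (R n) (S.T n) hR1 hfits (SW733.vs (S.δ n) (S.a n) Bm)
    (phin (S.δ n) (S.a n) χ) (res (S.δ n) (S.a n) ψ) hχf hχb hbump hfar F hF hFm th 1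
    (le_of_eq (abs_of_nonneg th_nonneg))
    (by rw [abs_one]; exact hC04)
  have key' := key.trans hCε.le
  -- replace the discrete Laplacian
  have hψn : J.FS (res (S.δ n) (S.a n) ψ) := J.IsBump.fs hbump
  have hlapn : J.FS (lap (res (S.δ n) (S.a n) ψ)) := J.fs_lap hψn
  have hdiff : ∀ ω ∈ DD (S.T n).V,
      |th * hf ω (phin (S.δ n) (S.a n) (fun z => χ z - lapC ψ z)) -
        th * hf ω (fun x => phin (S.δ n) (S.a n) χ x - (1 : ℝ) * lap (res (S.δ n) (S.a n) ψ) x)| ≤
      L0 * S.δ n := by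
    intro ω hω
    have hlc : J.FS (phin (S.δ n) (S.a n) (lapC ψ)) := by
      have h1 : HasCompactSupport (lapC ψ) := by
        have h2 := cpt_De (cpt_De hψ.cpt 1) 1
        have h3 := cpt_De (cpt_De hψ.cpt Complex.I) Complex.I
        exact h2.add h3
      exact (fin0_res hd (S.a n) h1).mul_left (fun _ => S.δ n ^ 2)
    have e1 : hf ω (phin (S.δ n) (S.a n) (fun z => χ z - lapC ψ z)) -
        hf ω (fun x => phin (S.δ n) (S.a n) χ x - (1 : ℝ) * lap (res (S.δ n) (S.a n) ψ) x) =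
        ∑ᶠ x : Pt, (lap (res (S.δ n) (S.a n) ψ) x - phin (S.δ n) (S.a n) (lapC ψ) x) *
          (h ω x : ℝ) := by
      unfold hf
      have f1 : J.FS (phin (S.δ n) (S.a n) (fun z => χ z - lapC ψ z)) := by
        have e : phin (S.δ n) (S.a n) (fun z => χ z - lapC ψ z) =
            fun x => phin (S.δ n) (S.a n) χ x - phin (S.δ n) (S.a n) (lapC ψ) x := by
          funext x
          unfold phin
          ring
        rw [e]
        exact J.FS.sub hχf hlc
      rw [← finsum_sub_distrib (f1.mul_right _)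
        ((J.FS.sub hχf (hlapn.mul_left (fun _ => (1 : ℝ)))).mul_right _)]
      refine finsum_congr (fun x => ?_)
      unfold phin
      ring
    rw [← mul_sub, e1, abs_mul]
    have hsuppL : ∀ y, y ∉ box (0, 0) (R n + 1) →
        (lap (res (S.δ n) (S.a n) ψ) y - phin (S.δ n) (S.a n) (lapC ψ) y) * (h ω y : ℝ) = 0 := by
      intro y hy
      have hz : ∀ y', dn y y' ≤ 1 → res (S.δ n) (S.a n) ψ y' = 0 := by
        intro y' hy'
        apply hbump.1
        intro hcon
        apply hy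
        rw [G45.mem_box] at hcon ⊢
        have := G45.dn_tri (0, 0) y' y
        rw [G45.dn_comm y' y] at this
        omega
      have hl1 : lap (res (S.δ n) (S.a n) ψ) y = 0 := by
        unfold lap
        rw [hz _ (G45.dn_right y).le, hz _ (G45.dn_left y).le, hz _ (G45.dn_up y).le,
          hz _ (G45.dn_down y).le, hz y (by rw [G45.dn_self]; omega)]
        ring
      have hl2 : phin (S.δ n) (S.a n) (lapC ψ) y = 0 := by
        have hnb : ‖pos (S.δ n) (S.a n) y‖ > ϱ2 := by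
          by_contra hcon
          push Not at hcon
          apply hy
          have : y ∈ box (0, 0) (R n) := by
            apply mem_box_of_pos hd hRge
            have := hCa n
            linarith
          rw [G45.mem_box] at this ⊢
          omega
        have hev : ψ =ᶠ[𝓝 (pos (S.δ n) (S.a n) y)] fun _ => 0 := by
          have ho : IsOpen {z : ℂ | ϱ2 < ‖z‖} := isOpen_lt continuous_const continuous_norm
          filter_upwards [ho.mem_nhds hnb] with z hz
          by_contra hne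
          exact absurd (hϱ2 z hne) (not_le.2 hz)
        have hD : ∀ e : ℂ, De e (De e ψ) (pos (S.δ n) (S.a n) y) = 0 := by
          intro e
          have h1 : De e ψ =ᶠ[𝓝 (pos (S.δ n) (S.a n) y)] fun _ => 0 := by
            filter_upwards [hev.eventually_nhds] with z hz
            unfold De
            rw [Filter.EventuallyEq.fderiv_eq (show ψ =ᶠ[𝓝 z] fun _ => 0 from hz)]
            simp
          unfold De
          have h2 := h1.fderiv_eq (𝕜 := ℝ)
          unfold De at h2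
          rw [h2]
          simp
        unfold phin
        have : lapC ψ (pos (S.δ n) (S.a n) y) = De 1 (De 1 ψ) (pos (S.δ n) (S.a n) y) +
          De Complex.I (De Complex.I ψ) (pos (S.δ n) (S.a n) y) := rfl
        rw [this, hD, hD]
        ring
      rw [hl1, hl2]
      ring
    have hb1 := J.abs_finsum_le (x := (0, 0)) (r := R n + 1)
      (B := C3 * S.δ n ^ 4 * (2 * R n + 5)) (by
        intro y
        rw [abs_mul]
        exact mul_le_mul (hC3 (S.δ n) (S.a n) y hd.le) (J.abs_h_le hfits hω y) (abs_nonneg _)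
          (by positivity)) hsuppL
    calc |th| * _ ≤ |th| * ((2 * ((R n + 1 : ℕ) : ℝ) + 1) ^ 2 *
          (C3 * S.δ n ^ 4 * (2 * R n + 5))) := mul_le_mul_of_nonneg_left hb1 (abs_nonneg _)
      _ = |th| * ((2 * (S.δ n * R n + S.δ n) + S.δ n) ^ 2 *
          (C3 * (2 * (S.δ n * R n) + 5 * S.δ n))) * S.δ n := by push_cast; ring
      _ ≤ |th| * ((2 * (A + 2) + 1) ^ 2 * (C3 * (2 * (A + 2) + 5))) * S.δ n := by
        have x1 : S.δ n * R n + S.δ n ≤ A + 2 := by linarith
        have x2 : 0 ≤ S.δ n * R n := by positivity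
        have x3 : (2 * (S.δ n * R n + S.δ n) + S.δ n) ^ 2 ≤ (2 * (A + 2) + 1) ^ 2 :=
          pow_le_pow_left₀ (by positivity) (by linarith) 2
        have x4 : C3 * (2 * (S.δ n * R n) + 5 * S.δ n) ≤ C3 * (2 * (A + 2) + 5) :=
          mul_le_mul_of_nonneg_left (by linarith) hC30
        exact mul_le_mul_of_nonneg_right (mul_le_mul_of_nonneg_left
          (mul_le_mul x3 x4 (by positivity) (by positivity)) (abs_nonneg _)) hd.le
      _ = L0 * S.δ n := by rw [hL0]
  -- assemble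
  set X1 : ℂ := Ex (S.T n).V (fun ω => F ω * Complex.exp (Complex.I * (th *
        hf ω (phin (S.δ n) (S.a n) (fun z => χ z - lapC ψ z)) : ℝ))) with hX1
  set X2 : ℂ := Ex (S.T n).V (fun ω => F ω * Complex.exp (Complex.I * (th *
        hf ω (phin (S.δ n) (S.a n) χ) : ℝ))) with hX2
  set X3 : ℂ := Ex (S.T n).V (fun ω => F ω * Complex.exp (Complex.I * (th *
        hf ω (fun x => phin (S.δ n) (S.a n) χ x -
          (1 : ℝ) * lap (res (S.δ n) (S.a n) ψ) x) : ℝ))) with hX3
  have hkey2 : ‖X3 - (En n : ℂ) * X2‖ ≤ ε / 3 := by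
    refine le_trans (le_of_eq ?_) key'
    rw [hX3, hX2]
    congr 2
    · refine J.avg_congr (fun ω _ => ?_)
      congr 2
      push_cast
      ring
    · congr 1
      refine J.avg_congr (fun ω _ => ?_)
      congr 2
      push_cast
      ring
  have h13 : ‖X1 - X3‖ ≤ ε / 3 := by
    rw [hX1, hX3, J.Ex_eq_avg, J.Ex_eq_avg, ← J.avg_sub]
    refine (J.norm_avg_le_const (by positivity) ?_).trans hLε.le
    intro ω hω
    rw [← mul_sub, norm_mul]
    refine (mul_le_of_le_one_left (norm_nonneg _) (hF ω hω)).trans ?_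
    exact (norm_exp_sub _ _).trans (hdiff ω hω)
  have hX2n : ‖X2‖ ≤ 1 := by
    rw [hX2]
    apply J.norm_avg_le_const (by norm_num)
    intro ω hω
    rw [norm_mul]
    have : ‖Complex.exp (Complex.I * ((th * hf ω (phin (S.δ n) (S.a n) χ) : ℝ) : ℂ))‖ = 1 := by
      rw [mul_comm]; exact Complex.norm_exp_ofReal_mul_I _
    rw [this, mul_one]
    exact hF ω hω
  have hfinal : X1 - (E0 : ℂ) * X2 = (X1 - X3) + (X3 - (En n : ℂ) * X2) +
      ((En n - E0 : ℝ) : ℂ) * X2 := by push_cast; ring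
  rw [hfinal]
  have h4 : ‖((En n - E0 : ℝ) : ℂ) * X2‖ ≤ ε / 3 := by
    rw [norm_mul, Complex.norm_real, Real.norm_eq_abs]
    calc |En n - E0| * ‖X2‖ ≤ ε / 3 * 1 := mul_le_mul hEε.le hX2n (norm_nonneg _) (by positivity)
      _ = ε / 3 := mul_one _
  calc ‖_ + _ + _‖ ≤ ‖_‖ + ‖_‖ + ‖_‖ := norm_add₃_le
    _ ≤ ε / 3 + ε / 3 + ε / 3 := add_le_add (add_le_add h13 hkey2) h4
    _ = ε := by ring

end

end Vale.Agent.P155.SW730
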