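import Vale.Agent.P155.SW730.SeqP
import Vale.Agent.P155.SW743.Fin

/-!
# P155, (SW): blocks (1)-(3), closed form
-/

namespace Vale.Agent.P155.SW730

/-- **Blocks (1)-(3) of (SW)**, closed form. -/
theorem sdl : SWR.SDL := SW743.sdl_of_seq seqP

end Vale.Agent.P155.SW730
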