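import Vale.Agent.P155.SW730.Samp
import Vale.Agent.P155.SW730.Fin
import Vale.Agent.P155.SW743.Asm

/-!
# P155, (SW), block (3): the discrete identity in the form of `SW743.SeqP`
-/

namespace Vale.Agent.P155.SW730

open MeasureTheory Filter Topology Vale.Agent.P155

/-- **the discrete Schwinger-Dyson identity along Temperleyan approximations**, closed form -/
theorem seqP : SW743.SeqP := by
  intro Ω ho hb _ _ S Bm hBm χ ψ hχ hψ hs F hF hI
  rw [tendsto_zero_iff_norm_tendsto_zero, Metric.tendsto_atTop]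
  intro ε hε
  have h1 := sd_lim S sd_F' ho hb hBm (K.isTest_iff.1 hχ) (K.isTest_iff.1 hψ) hs
    (half_pos hε)
  obtain ⟨N, hN⟩ := eventually_atTop.1 h1
  refine ⟨N, fun n hn => ?_⟩
  have h2 := hN n hn (F n) (hF n) (hI n)
  rw [dist_zero_right, norm_norm]
  refine lt_of_le_of_lt (le_of_eq ?_) (h2.trans_lt (half_lt_self hε))
  have e1 : ∀ x : ℝ, Complex.I * Real.sqrt (Real.pi / 2) * (x : ℂ) =
      Complex.I * ((th * x : ℝ) : ℂ) := by
    intro x
    unfold th
    push_cast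
    ring
  have e2 : Complex.exp (-((∫ w, ψ w * χ w : ℝ) : ℂ) - ((SWR.dir2 ψ : ℝ) : ℂ) / 2) =
      ((Real.exp (-(∫ z, ψ z * χ z) - (∫ z, ‖fderiv ℝ ψ z‖ ^ 2) / 2) : ℝ) : ℂ) := by
    unfold SWR.dir2
    push_cast
    rfl
  simp only [e1]
  rw [← e2]
  rfl

end Vale.Agent.P155.SW730
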